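import Mathlib

/-!
Gaussian concentration in `L_p` for Lipschitz functions on Euclidean space, by rotation.
-/

open MeasureTheory ProbabilityTheory Real Filter Topology
open scoped NNReal ENNReal

namespace Vale.Agent.P249.Lower

/-- Euclidean space of dimension `k`. -/
abbrev E (k : ℕ) := EuclideanSpace ℝ (Fin k)

/-- The standard Gaussian measure on `E k`. -/
noncomputable abbrev γ (k : ℕ) : Measure (E k) := stdGaussian (E k)

/-- Absolute moment of a standard Gaussian variable. -/
noncomputable def mom (p : ℝ) : ℝ := ∫ t, |t| ^ p ∂gaussianReal 0 1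

theorem pi_gauss_ac : ∀ k : ℕ,
    Measure.pi (fun _ : Fin k => gaussianReal 0 1) ≪ Measure.pi (fun _ : Fin k => (volume : Measure ℝ))
  | 0 => by rw [Measure.pi_of_empty, Measure.pi_of_empty]
  | k + 1 => by
    have h1 := measurePreserving_piFinSuccAbove (fun _ : Fin (k + 1) => gaussianReal 0 1) 0
    have h2 := measurePreserving_piFinSuccAbove (fun _ : Fin (k + 1) => (volume : Measure ℝ)) 0
    rw [← (h1.symm _).map_eq, ← (h2.symm _).map_eq]
    exact ((gaussianReal_absolutelyContinuous 0 one_ne_zero).prod (pi_gauss_ac k)).map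
      (MeasurableEquiv.measurable _)

theorem gauss_ac (k : ℕ) : γ k ≪ (volume : Measure (E k)) := by
  rw [γ, ← map_pi_eq_stdGaussian, ← (PiLp.volume_preserving_toLp (Fin k)).map_eq, volume_pi]
  exact (pi_gauss_ac k).map (by fun_prop)

theorem mom_nonneg (p : ℝ) : 0 ≤ mom p := integral_nonneg fun t => rpow_nonneg (abs_nonneg t) p

theorem map_dual (k : ℕ) (L : StrongDual ℝ (E k)) :
    (γ k).map L = (gaussianReal 0 1).map (fun t => ‖L‖ * t) := by
  rw [IsGaussian.map_eq_gaussianReal L, integral_strongDual_stdGaussian, variance_dual_stdGaussian,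
    gaussianReal_map_const_mul, mul_zero]
  congr 1
  ext
  simp

/-- Moments of a linear functional. -/
theorem integral_dual_rpow (k : ℕ) (L : StrongDual ℝ (E k)) {p : ℝ} (hp : 0 ≤ p) :
    ∫ x, |L x| ^ p ∂γ k = ‖L‖ ^ p * mom p := by
  have hm : ∀ μ : Measure ℝ, AEStronglyMeasurable (fun t : ℝ => |t| ^ p) μ := fun μ =>
    (continuous_abs.rpow_const fun _ => Or.inr hp).aestronglyMeasurable
  rw [← integral_map (f := fun t : ℝ => |t| ^ p) (by fun_prop) (hm _), map_dual,
    integral_map (by fun_prop) (hm _), mom, ← integral_const_mul]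
  congr 1
  ext t
  rw [abs_mul, abs_norm, mul_rpow (norm_nonneg _) (abs_nonneg _)]

theorem rotation_eq (k : ℕ) (θ : ℝ) :
    ((γ k).prod (γ k)).map (ContinuousLinearMap.rotation θ) = (γ k).prod (γ k) :=
  IsGaussian.map_rotation_eq_self (by simp) θ

/-- Functions of polynomial growth are integrable. -/
theorem integrable_of_bound {F : Type*} [NormedAddCommGroup F] [NormedSpace ℝ F]
    [MeasurableSpace F] [BorelSpace F] [CompleteSpace F] [SecondCountableTopology F]
    (μ : Measure F) [IsGaussian μ] {p A B : ℝ} (hp : 0 < p) {φ : F → ℝ}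
    (hφ : AEStronglyMeasurable φ μ) (hb : ∀ z, |φ z| ≤ A + B * ‖z‖ ^ p) : Integrable φ μ := by
  have h : Integrable (fun z => A + B * ‖z‖ ^ p) μ := by
    refine (integrable_const A).add (Integrable.const_mul ?_ B)
    have := (IsGaussian.memLp_id μ (ENNReal.ofReal p) ENNReal.ofReal_ne_top).integrable_norm_rpow'
    simpa [ENNReal.toReal_ofReal hp.le] using this
  exact h.mono' hφ (ae_of_all _ fun z => by simpa [Real.norm_eq_abs] using hb z)

/-- **Gaussian concentration**: a `1`-Lipschitz function varies boundedly in `L_p`. -/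
theorem gaussian_lip (k : ℕ) {p : ℝ} (hp : 1 ≤ p) (U : E k → ℝ) (hU : LipschitzWith 1 U) :
    ∫ z, |U z.1 - U z.2| ^ p ∂(γ k).prod (γ k) ≤ (π / 2) ^ p * mom p := by
  set μ := (γ k).prod (γ k)
  have hp0 : 0 < p := lt_of_lt_of_le one_pos hp
  have hUc : Continuous U := hU.continuous
  set δ : ℕ → ℝ := fun N => π / 2 / N
  set Δ : ℕ → E k × E k → ℝ := fun N z => U (cos (δ N) • z.1 + sin (δ N) • z.2) - U z.1
  have hΔ : ∀ N z, |Δ N z| ≤ 2 * δ N * ‖z‖ := fun N z => by
    have hd : 0 ≤ δ N := by positivity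
    have e1 : |cos (δ N) - 1| ≤ δ N := by
      simpa [abs_of_nonneg hd] using abs_cos_sub_cos_le (δ N) 0
    have e2 : |sin (δ N)| ≤ δ N := abs_sin_le_abs.trans_eq (abs_of_nonneg hd)
    calc |Δ N z| ≤ ‖cos (δ N) • z.1 + sin (δ N) • z.2 - z.1‖ := by
            simpa [Real.dist_eq, dist_eq_norm] using
              hU.dist_le_mul (cos (δ N) • z.1 + sin (δ N) • z.2) z.1
      _ = ‖(cos (δ N) - 1) • z.1 + sin (δ N) • z.2‖ := by rw [sub_smul, one_smul]; abel_nf
      _ ≤ |cos (δ N) - 1| * ‖z.1‖ + |sin (δ N)| * ‖z.2‖ := by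
            refine (norm_add_le _ _).trans_eq ?_
            rw [norm_smul, norm_smul, Real.norm_eq_abs, Real.norm_eq_abs]
      _ ≤ δ N * ‖z‖ + δ N * ‖z‖ := by gcongr <;> first | exact norm_fst_le z | exact norm_snd_le z
      _ = _ := by ring
  have hint : ∀ N, Integrable (fun z => |Δ N z| ^ p) μ := fun N => by
    refine integrable_of_bound μ (A := 0) (B := (2 * δ N) ^ p) hp0
      ((Continuous.rpow_const (by fun_prop) fun _ => Or.inr hp0.le).aestronglyMeasurable)
      fun z => ?_
    rw [abs_of_nonneg (rpow_nonneg (abs_nonneg _) _), zero_add,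
      ← mul_rpow (by positivity) (norm_nonneg _)]
    exact rpow_le_rpow (abs_nonneg _) (hΔ N z) hp0.le
  -- splitting into `N` rotations
  have hbound : ∀ N : ℕ, 0 < N → ∫ z, |U z.1 - U z.2| ^ p ∂μ
      ≤ ∫ z, ((N : ℝ) * |Δ N z|) ^ p ∂μ := fun N hN => by
    set R : ℕ → E k × E k → E k × E k := fun j => ContinuousLinearMap.rotation (j * δ N)
    have hmp : ∀ j, MeasurePreserving (R j) μ μ := fun j =>
      ⟨(ContinuousLinearMap.rotation _).continuous.measurable, rotation_eq k _⟩
    have hstep : ∀ j z, U (R (j + 1) z).1 - U (R j z).1 = Δ N (R j z) := fun j z => by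
      simp only [Δ, R, ContinuousLinearMap.rotation_apply, Nat.cast_add, Nat.cast_one, add_mul,
        one_mul, cos_add, sin_add, smul_add, smul_smul]
      congr 2
      module
    have hpt : ∀ z, |U z.1 - U z.2| ^ p
        ≤ (N : ℝ) ^ (p - 1) * ∑ j ∈ Finset.range N, |Δ N (R j z)| ^ p := fun z => by
      have hN' : (N : ℝ) * δ N = π / 2 := mul_div_cancel₀ _ (by positivity)
      have h1 : U z.2 - U z.1 = ∑ j ∈ Finset.range N, Δ N (R j z) := by
        simp only [← hstep]
        rw [Finset.sum_range_sub (fun j => U (R j z).1)]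
        simp [R, ContinuousLinearMap.rotation_apply, hN']
      calc |U z.1 - U z.2| ^ p = |∑ j ∈ Finset.range N, Δ N (R j z)| ^ p := by
            rw [abs_sub_comm, h1]
        _ ≤ (∑ j ∈ Finset.range N, |Δ N (R j z)|) ^ p :=
            rpow_le_rpow (abs_nonneg _) (Finset.abs_sum_le_sum_abs _ _) hp0.le
        _ ≤ _ := by
            simpa using Real.rpow_sum_le_const_mul_sum_rpow (s := Finset.range N)
              (f := fun j => Δ N (R j z)) hp
    have hi : ∀ j, Integrable (fun z => |Δ N (R j z)| ^ p) μ := fun j =>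
      (hmp j).integrable_comp_of_integrable (hint N)
    have he : ∀ j, ∫ z, |Δ N (R j z)| ^ p ∂μ = ∫ z, |Δ N z| ^ p ∂μ := fun j => by
      conv_rhs => rw [← (hmp j).map_eq]
      rw [integral_map (hmp j).measurable.aemeasurable]
      rw [(hmp j).map_eq]
      exact (hint N).aestronglyMeasurable
    calc ∫ z, |U z.1 - U z.2| ^ p ∂μ
        ≤ ∫ z, (N : ℝ) ^ (p - 1) * ∑ j ∈ Finset.range N, |Δ N (R j z)| ^ p ∂μ :=
          integral_mono_of_nonneg (ae_of_all _ fun z => by positivity)
            ((integrable_finsetSum _ fun j _ => hi j).const_mul _) (ae_of_all _ hpt)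
      _ = (N : ℝ) ^ (p - 1) * N * ∫ z, |Δ N z| ^ p ∂μ := by
          rw [integral_const_mul, integral_finsetSum _ fun j _ => hi j]
          simp [he, mul_assoc]
      _ = _ := by
          rw [← rpow_add_one (by positivity), sub_add_cancel, ← integral_const_mul]
          congr 1; ext z
          rw [mul_rpow (by positivity) (abs_nonneg _)]
  -- the limit
  set L : E k × E k → ℝ := fun z => π / 2 * |fderiv ℝ U z.1 z.2|
  have hLb : ∀ z : E k × E k, |fderiv ℝ U z.1 z.2| ≤ ‖z‖ := fun z => by
    refine ((fderiv ℝ U z.1).le_opNorm z.2).trans ?_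
    refine (mul_le_mul (norm_fderiv_le_of_lipschitz ℝ hU) (norm_snd_le z)
      (norm_nonneg _) zero_le_one).trans_eq ?_
    simp
  have hLm : Measurable L := by
    have h1 : Measurable fun z : E k × E k => (fderiv ℝ U z.1, z.2) :=
      ((measurable_fderiv ℝ U).comp measurable_fst).prodMk measurable_snd
    have h2 : Continuous fun q : (E k →L[ℝ] ℝ) × E k => π / 2 * |q.1 q.2| := by fun_prop
    exact h2.measurable.comp h1
  have hlim : ∀ᵐ z ∂μ, Tendsto (fun N : ℕ => ((N + 1 : ℕ) * |Δ (N + 1) z|) ^ p) atTop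
      (𝓝 (L z ^ p)) := by
    have hd : ∀ᵐ x ∂γ k, DifferentiableAt ℝ U x :=
      (gauss_ac k).ae_le (hU.ae_differentiableAt (μ := volume))
    filter_upwards [Measure.quasiMeasurePreserving_fst.ae hd] with z hz
    refine (Filter.Tendsto.rpow_const ?_ (Or.inr hp0.le))
    set h : ℝ → ℝ := fun t => U (cos t • z.1 + sin t • z.2)
    have hh : HasDerivAt h (fderiv ℝ U z.1 z.2) 0 := by
      have hc : HasDerivAt (fun t : ℝ => cos t • z.1 + sin t • z.2) z.2 0 := by
        have h0 := ((hasDerivAt_cos (0 : ℝ)).smul_const z.1).fun_add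
          ((hasDerivAt_sin (0 : ℝ)).smul_const z.2)
        simpa using h0
      exact (hz.hasFDerivAt).comp_hasDerivAt_of_eq 0 hc (by simp)
    have hδ : Tendsto (fun N : ℕ => δ (N + 1)) atTop (𝓝[≠] (0 : ℝ)) := by
      refine tendsto_nhdsWithin_iff.2 ⟨?_, Eventually.of_forall fun N => ?_⟩
      · exact (tendsto_const_div_atTop_nhds_zero_nat (π / 2)).comp (tendsto_add_atTop_nat 1)
      · exact div_ne_zero (by positivity) (Nat.cast_ne_zero.2 N.succ_ne_zero)
    have ht := (((hasDerivAt_iff_tendsto_slope.1 hh).comp hδ).abs).const_mul (π / 2)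
    refine ht.congr fun N => ?_
    have hN : ((N + 1 : ℕ) : ℝ) ≠ 0 := Nat.cast_ne_zero.2 N.succ_ne_zero
    simp only [Function.comp_apply, slope_def_field, h, cos_zero, sin_zero, one_smul, zero_smul,
      add_zero, sub_zero, abs_div, Δ, δ]
    rw [abs_of_pos pi_pos, abs_two, Nat.abs_cast]
    field_simp
  have hLi : Integrable (fun z => L z ^ p) μ := by
    refine integrable_of_bound μ (A := 0) (B := (π / 2) ^ p) hp0
      (hLm.pow_const p).aestronglyMeasurable fun z => ?_
    rw [abs_of_nonneg (rpow_nonneg (by positivity) _), zero_add,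
      ← mul_rpow (by positivity) (norm_nonneg _)]
    exact rpow_le_rpow (by positivity) (mul_le_mul_of_nonneg_left (hLb z) (by positivity)) hp0.le
  have htend : Tendsto (fun N : ℕ => ∫ z, ((N + 1 : ℕ) * |Δ (N + 1) z|) ^ p ∂μ) atTop
      (𝓝 (∫ z, L z ^ p ∂μ)) := by
    refine tendsto_integral_of_dominated_convergence (fun z => π ^ p * ‖z‖ ^ p)
      (fun N => (Continuous.rpow_const (by fun_prop) fun _ => Or.inr hp0.le).aestronglyMeasurable)
      ?_ (fun N => ae_of_all _ fun z => ?_) hlim
    · refine integrable_of_bound μ (A := 0) (B := π ^ p) hp0 ?_ fun z => ?_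
      · exact (continuous_const.mul
          (continuous_norm.rpow_const fun _ => Or.inr hp0.le)).aestronglyMeasurable
      · rw [abs_of_nonneg (by positivity), zero_add]
    · rw [Real.norm_eq_abs, abs_of_nonneg (by positivity), ← mul_rpow (by positivity) (norm_nonneg _)]
      refine rpow_le_rpow (by positivity) ((mul_le_mul_of_nonneg_left (hΔ (N + 1) z)
        (by positivity)).trans_eq ?_) hp0.le
      simp only [δ]
      field_simp
  refine (ge_of_tendsto' htend fun N => hbound (N + 1) N.succ_pos).trans ?_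
  rw [integral_prod _ hLi]
  have hx : ∀ x : E k, ∫ y, L (x, y) ^ p ∂γ k ≤ (π / 2) ^ p * mom p := fun x => by
    simp only [L, mul_rpow (show (0 : ℝ) ≤ π / 2 by positivity) (abs_nonneg _)]
    rw [integral_const_mul, integral_dual_rpow k _ hp0.le]
    refine mul_le_mul_of_nonneg_left (mul_le_of_le_one_left (mom_nonneg p)
      (rpow_le_one (norm_nonneg _) ?_ hp0.le)) (by positivity)
    simpa using norm_fderiv_le_of_lipschitz ℝ hU
  calc ∫ x, ∫ y, L (x, y) ^ p ∂γ k ∂γ k ≤ ∫ _x : E k, (π / 2) ^ p * mom p ∂γ k :=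
        integral_mono_of_nonneg
          (ae_of_all _ fun x => integral_nonneg fun y => rpow_nonneg (by positivity) _)
          (integrable_const _) (ae_of_all _ hx)
    _ = _ := by simp

end Vale.Agent.P249.Lower
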