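import Vale.Agent.P249.Lower.Gauss

/-!
A small net of Gaussian space and the resulting dimension bound for maps into `ℓ_p^d`.
-/

open MeasureTheory ProbabilityTheory Real Filter Topology
open scoped NNReal ENNReal

namespace Vale.Agent.P249.Lower

/-- Moment bounding the rounding error. -/
noncomputable def errMom (p : ℝ) : ℝ := ∫ t, (1 + t ^ 4) ^ (p / 2) ∂gaussianReal 0 1

theorem errMom_nonneg (p : ℝ) : 0 ≤ errMom p := integral_nonneg fun t => by positivity

/-- Index of the rounded value. -/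
noncomputable def idx (k : ℕ) (t : ℝ) : ℤ := max (-(k : ℤ)) (min (k : ℤ) ⌊t * √k⌋)

/-- Rounding to the grid. -/
noncomputable def round' (k : ℕ) (x : E k) : E k :=
  WithLp.toLp 2 fun i => (idx k (x i) : ℝ) / √k

/-- The grid. -/
noncomputable def grid (k : ℕ) : Finset (E k) := by
  classical
  exact (Finset.univ : Finset (Fin k → Fin (2 * k + 1))).image
    fun j => WithLp.toLp 2 fun i => (((j i : ℕ) : ℝ) - k) / √k

theorem card_grid_le (k : ℕ) : (grid k).card ≤ (2 * k + 1) ^ k := by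
  classical
  unfold grid
  exact Finset.card_image_le.trans (by simp)

theorem round'_mem (k : ℕ) (x : E k) : round' k x ∈ grid k := by
  classical
  unfold grid
  have h1 : ∀ i, -(k : ℤ) ≤ idx k (x i) := fun i => le_max_left _ _
  have h2 : ∀ i, idx k (x i) ≤ k := fun i => max_le (by omega) (min_le_left _ _)
  refine Finset.mem_image.2 ⟨fun i => ⟨(idx k (x i) + k).toNat, by have := h1 i; have := h2 i; omega⟩,
    Finset.mem_univ _, ?_⟩
  unfold round'
  congr 1; ext i
  have : (((idx k (x i) + k).toNat : ℕ) : ℤ) = idx k (x i) + k :=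
    Int.toNat_of_nonneg (by have := h1 i; omega)
  have : (((idx k (x i) + k).toNat : ℕ) : ℝ) = (idx k (x i) : ℝ) + k := by exact_mod_cast this
  simp [this]

theorem measurable_round' (k : ℕ) : Measurable (round' k) := by
  unfold round'
  refine (by fun_prop : Measurable (WithLp.toLp 2 : (Fin k → ℝ) → E k)).comp ?_
  refine measurable_pi_lambda _ fun i => ?_
  have h : Measurable fun t : ℝ => (idx k t : ℝ) / √k :=
    (measurable_of_countable fun J : ℤ => ((max (-(k : ℤ)) (min (k : ℤ) J) : ℤ) : ℝ) / √k).comp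
      (Int.measurable_floor.comp (measurable_id.mul_const _))
  exact h.comp (by fun_prop)

theorem sq_round_le {k : ℕ} (hk : 0 < k) (t : ℝ) :
    (t - (idx k t : ℝ) / √k) ^ 2 ≤ (1 + t ^ 4) / k := by
  have hk' : (0 : ℝ) < k := by exact_mod_cast hk
  set s := √(k : ℝ)
  have hs : 0 < s := Real.sqrt_pos.2 hk'
  have hs2 : s ^ 2 = k := Real.sq_sqrt hk'.le
  set u := t * s with hu
  suffices h : (u - idx k t) ^ 2 ≤ 1 + u ^ 4 / (k : ℝ) ^ 2 by
    have e1 : (t - (idx k t : ℝ) / s) ^ 2 = (u - idx k t) ^ 2 / k := by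
      rw [← hs2, ← div_pow]; congr 1; rw [hu]; field_simp
    have e2 : u ^ 4 / (k : ℝ) ^ 2 = t ^ 4 := by rw [← hs2, hu]; field_simp
    rw [e1]; rw [e2] at h
    gcongr
  have hm1 := Int.floor_le u
  have hm2 := Int.lt_floor_add_one u
  have hq : u ^ 2 ≥ (k : ℝ) ^ 2 → u ^ 2 ≤ 1 + u ^ 4 / (k : ℝ) ^ 2 := fun h => by
    have : u ^ 2 ≤ u ^ 4 / (k : ℝ) ^ 2 := by
      rw [le_div_iff₀ (by positivity)]; nlinarith [sq_nonneg u]
    linarith
  by_cases hhi : (k : ℝ) < u
  · have : idx k t = k := by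
      have : (k : ℤ) ≤ ⌊u⌋ := Int.le_floor.2 (by exact_mod_cast hhi.le)
      simp only [idx, ← hu, s] at *; omega
    rw [this]; push_cast
    exact le_trans (by nlinarith) (hq (by nlinarith))
  by_cases hlo : u < -(k : ℝ)
  · have : idx k t = -(k : ℤ) := by
      have : ⌊u⌋ < -(k : ℤ) := Int.floor_lt.2 (by push_cast; exact hlo)
      simp only [idx, ← hu, s] at *; omega
    rw [this]; push_cast
    exact le_trans (by nlinarith) (hq (by nlinarith))
  have : idx k t = ⌊u⌋ := by
    have : -(k : ℤ) ≤ ⌊u⌋ := Int.le_floor.2 (by push_cast; linarith)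
    have : ⌊u⌋ ≤ (k : ℤ) :=
      Int.floor_le_iff.2 (lt_of_le_of_lt (not_lt.1 hhi) (by push_cast; linarith))
    simp only [idx, ← hu, s] at *; omega
  rw [this]
  have : 0 ≤ u ^ 4 / (k : ℝ) ^ 2 := by positivity
  nlinarith

/-- The dual functional of a coordinate. -/
noncomputable def coord (k : ℕ) (i : Fin k) : StrongDual ℝ (E k) :=
  innerSL ℝ (EuclideanSpace.single i (1 : ℝ))

theorem coord_apply (k : ℕ) (i : Fin k) (x : E k) : coord k i x = x i := by
  simp [coord, innerSL_apply_apply, EuclideanSpace.inner_single_left]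

theorem norm_coord (k : ℕ) (i : Fin k) : ‖coord k i‖ = 1 := by
  simp [coord, innerSL_apply_norm]

theorem map_coord (k : ℕ) (i : Fin k) : (γ k).map (fun x => x i) = gaussianReal 0 1 := by
  rw [show (fun x : E k => x i) = ⇑(coord k i) from funext fun x => (coord_apply k i x).symm,
    map_dual, norm_coord]
  simp

theorem err_integrable_le {k : ℕ} (hk : 0 < k) {p : ℝ} (hp : 2 ≤ p) :
    Integrable (fun x => ‖x - round' k x‖ ^ p) (γ k) ∧
      ∫ x, ‖x - round' k x‖ ^ p ∂γ k ≤ errMom p := by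
  have hk' : (0 : ℝ) < k := by exact_mod_cast hk
  have hp0 : 0 < p := by linarith
  have hg : Integrable (fun t : ℝ => (1 + t ^ 4) ^ (p / 2)) (gaussianReal 0 1) := by
    refine integrable_of_bound _ (p := 2 * p) (A := 2 ^ p) (B := 2 ^ p) (by positivity)
      ((Continuous.rpow_const (by fun_prop) fun _ => Or.inr (by positivity)).aestronglyMeasurable)
      fun t => ?_
    rw [abs_of_nonneg (by positivity), Real.norm_eq_abs]
    have h1 : (1 + t ^ 4) ^ (p / 2) ≤ (2 * max 1 (t ^ 2)) ^ p := by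
      rw [show (2 * max 1 (t ^ 2)) ^ p = ((2 * max 1 (t ^ 2)) ^ (2 : ℕ)) ^ (p / 2) by
        rw [← rpow_natCast (2 * max 1 (t ^ 2)) 2, ← rpow_mul (by positivity)]; congr 1; push_cast; ring]
      refine rpow_le_rpow (by positivity) ?_ (by positivity)
      nlinarith [le_max_left 1 (t ^ 2), le_max_right 1 (t ^ 2), sq_nonneg t]
    refine h1.trans ?_
    rw [mul_rpow (by norm_num) (le_max_of_le_left zero_le_one)]
    have h2 : |t| ^ (2 * p) = (t ^ 2) ^ p := by
      rw [← sq_abs t, ← rpow_natCast |t| 2, ← rpow_mul (abs_nonneg t)]; norm_num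
    rw [h2, ← mul_one_add]
    refine mul_le_mul_of_nonneg_left ?_ (by positivity)
    rcases max_cases 1 (t ^ 2) with ⟨h, -⟩ | ⟨h, -⟩ <;> rw [h]
    · rw [one_rpow]; linarith [rpow_nonneg (sq_nonneg t) p]
    · linarith
  have hgi : ∀ i : Fin k, Integrable (fun x : E k => (1 + x i ^ 4) ^ (p / 2)) (γ k) := fun i => by
    have := hg; rw [← map_coord k i] at this
    exact this.comp_measurable (by fun_prop)
  have hpt : ∀ x : E k, ‖x - round' k x‖ ^ p ≤ ∑ i, (k : ℝ)⁻¹ * (1 + x i ^ 4) ^ (p / 2) := fun x => by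
    have h1 : ‖x - round' k x‖ ^ p = (‖x - round' k x‖ ^ (2 : ℕ)) ^ (p / 2) := by
      rw [← rpow_natCast, ← rpow_mul (norm_nonneg _)]; congr 1; push_cast; ring
    rw [h1]
    refine le_trans (rpow_le_rpow (by positivity) ?_ (by positivity))
      (rpow_arith_mean_le_arith_mean_rpow Finset.univ (fun _ => (k : ℝ)⁻¹)
        (fun i => 1 + x i ^ 4) (fun i _ => by positivity) (by simp [hk'.ne'])
        (fun i _ => by positivity) (by linarith))
    rw [EuclideanSpace.real_norm_sq_eq]
    exact Finset.sum_le_sum fun i _ => by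
      simpa [round', div_eq_inv_mul] using sq_round_le hk (x i)
  have hsum : Integrable (fun x : E k => ∑ i, (k : ℝ)⁻¹ * (1 + x i ^ 4) ^ (p / 2)) (γ k) :=
    integrable_finsetSum _ fun i _ => (hgi i).const_mul _
  refine ⟨hsum.mono' (((measurable_id.sub (measurable_round' k)).norm.pow_const p).aestronglyMeasurable)
    (ae_of_all _ fun x => ?_), ?_⟩
  · rw [Real.norm_eq_abs, abs_of_nonneg (rpow_nonneg (norm_nonneg _) _)]; exact hpt x
  refine (integral_mono_of_nonneg (ae_of_all _ fun x => rpow_nonneg (norm_nonneg _) _) hsum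
    (ae_of_all _ hpt)).trans_eq ?_
  rw [integral_finsetSum _ fun i _ => (hgi i).const_mul _]
  have : ∀ i : Fin k, ∫ x, (1 + x i ^ 4) ^ (p / 2) ∂γ k = errMom p := fun i => by
    rw [errMom, ← map_coord k i, integral_map (by fun_prop) ?_]
    exact (Continuous.rpow_const (by fun_prop) fun _ => Or.inr (by positivity)).aestronglyMeasurable
  simp [integral_const_mul, this, hk'.ne']

theorem mom_one_pos : 0 < mom 1 := by
  have hi : Integrable (fun t : ℝ => |t| ^ (1 : ℝ)) (gaussianReal 0 1) := by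
    simpa using IsGaussian.integrable_id.norm (μ := gaussianReal 0 1)
  rw [mom, integral_pos_iff_support_of_nonneg (fun t => rpow_nonneg (abs_nonneg t) _) hi]
  have : Function.support (fun t : ℝ => |t| ^ (1 : ℝ)) = {0}ᶜ := by ext; simp
  rw [this]
  have := nullSingletonClass_gaussianReal (μ := 0) (v := 1) one_ne_zero
  simp [measure_compl (measurableSet_singleton (0 : ℝ))]

/-- The lower moment bound. -/
theorem sqrt_mul_le (k : ℕ) {p : ℝ} (hp : 1 ≤ p) :
    (√2 * (√k * mom 1)) ^ p ≤ ∫ z, ‖z.1 - z.2‖ ^ p ∂(γ k).prod (γ k) := by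
  have hp0 : 0 < p := lt_of_lt_of_le one_pos hp
  have hnp : Integrable (fun x : E k => ‖x‖ ^ p) (γ k) :=
    integrable_of_bound _ (A := 0) (B := 1) hp0
      (continuous_norm.rpow_const fun _ => Or.inr hp0.le).aestronglyMeasurable
      fun x => by rw [abs_of_nonneg (rpow_nonneg (norm_nonneg _) _)]; simp
  have h1 : √k * mom 1 ≤ ∫ x, ‖x‖ ∂γ k := by
    rcases Nat.eq_zero_or_pos k with rfl | hk
    · simpa using integral_nonneg fun x : E 0 => norm_nonneg x
    have hk' : (0 : ℝ) < √k := Real.sqrt_pos.2 (by exact_mod_cast hk)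
    have hn : Integrable (fun x : E k => ‖x‖) (γ k) := IsGaussian.integrable_id.norm
    have hci : ∀ i : Fin k, Integrable (fun x : E k => |x i|) (γ k) := fun i => by
      simpa [coord_apply] using (IsGaussian.integrable_dual (γ k) (coord k i)).abs
    have hle : ∫ x, ∑ i, |x i| ∂γ k ≤ ∫ x, √k * ‖x‖ ∂γ k := by
      refine integral_mono (integrable_finsetSum _ fun i _ => hci i) (hn.const_mul _) fun x => ?_
      have := sq_sum_le_card_mul_sum_sq (s := Finset.univ) (f := fun i => |x i|)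
      simp only [Finset.card_univ, Fintype.card_fin, sq_abs] at this
      rw [← EuclideanSpace.real_norm_sq_eq] at this
      refine (pow_le_pow_iff_left₀ (Finset.sum_nonneg fun i _ => abs_nonneg _) (by positivity)
        two_ne_zero).1 ?_
      rw [mul_pow, Real.sq_sqrt (Nat.cast_nonneg k)]
      exact this
    have hco : ∀ i : Fin k, ∫ x, |x i| ∂γ k = mom 1 := fun i => by
      simpa [coord_apply, norm_coord] using integral_dual_rpow k (coord k i) (p := 1) zero_le_one
    rw [integral_finsetSum _ fun i _ => hci i, integral_const_mul] at hle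
    simp [hco] at hle
    refine le_of_mul_le_mul_left ?_ hk'
    rw [← mul_assoc, Real.mul_self_sqrt (Nat.cast_nonneg k)]
    exact hle
  have h2 : (√k * mom 1) ^ p ≤ ∫ x, ‖x‖ ^ p ∂γ k :=
    (rpow_le_rpow (mul_nonneg (Real.sqrt_nonneg _) (mom_nonneg 1)) h1 hp0.le).trans
      ((convexOn_rpow hp).map_integral_le (continuous_id.rpow_const fun _ => Or.inr hp0.le).continuousOn
        isClosed_Ici (ae_of_all _ fun x => norm_nonneg x) IsGaussian.integrable_id.norm hnp)
  set μ := (γ k).prod (γ k)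
  have hmp : MeasurePreserving (ContinuousLinearMap.rotation (E := E k) (-(π / 4))) μ μ :=
    ⟨(ContinuousLinearMap.rotation _).continuous.measurable, rotation_eq k _⟩
  have h3 : ∀ z : E k × E k, ‖z.1 - z.2‖ ^ p
      = √2 ^ p * ‖(ContinuousLinearMap.rotation (-(π / 4)) z).1‖ ^ p := fun z => by
    rw [← mul_rpow (Real.sqrt_nonneg _) (norm_nonneg _), ContinuousLinearMap.rotation_apply]
    congr 1
    simp only [Real.cos_neg, Real.sin_neg, Real.cos_pi_div_four, Real.sin_pi_div_four, neg_smul,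
      ← sub_eq_add_neg, ← smul_sub, norm_smul, Real.norm_eq_abs]
    rw [abs_of_nonneg (by positivity), ← mul_assoc]
    nlinarith [Real.mul_self_sqrt (show (0 : ℝ) ≤ 2 by norm_num), norm_nonneg (z.1 - z.2)]
  have h4 : ∫ z, ‖z.1 - z.2‖ ^ p ∂μ = √2 ^ p * ∫ x, ‖x‖ ^ p ∂γ k := by
    simp only [h3]
    rw [integral_const_mul]
    congr 1
    have hc : Continuous fun z : E k × E k => ‖z.1‖ ^ p :=
      continuous_fst.norm.rpow_const fun _ => Or.inr hp0.le
    rw [← integral_map hmp.measurable.aemeasurable (f := fun z : E k × E k => ‖z.1‖ ^ p)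
      hc.aestronglyMeasurable, hmp.map_eq, integral_fun_fst (fun x => ‖x‖ ^ p)]
    simp
  rw [h4, mul_rpow (Real.sqrt_nonneg _) (mul_nonneg (Real.sqrt_nonneg _) (mom_nonneg 1))]
  exact mul_le_mul_of_nonneg_left h2 (by positivity)

theorem three_rpow {p a b c : ℝ} (hp : 1 ≤ p) (ha : 0 ≤ a) (hb : 0 ≤ b) (hc : 0 ≤ c) :
    (a + b + c) ^ p ≤ 3 ^ (p - 1) * (a ^ p + b ^ p + c ^ p) := by
  have := Real.rpow_sum_le_const_mul_sum_rpow (s := (Finset.univ : Finset (Fin 3)))
    (f := ![a, b, c]) hp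
  simpa [Fin.sum_univ_three, abs_of_nonneg ha, abs_of_nonneg hb, abs_of_nonneg hc] using this

/-- The constant of the main bound. -/
noncomputable def bound (p D : ℝ) : ℝ :=
  3 ^ (p - 1) * (D ^ p * (3 ^ (p - 1) * ((π / 2) ^ p * mom p + 2 * errMom p)) + 2 * errMom p)

/-- **Dimension bound**: maps of the grid into `ℓ_p^d` given by `1`-Lipschitz coordinates. -/
theorem dim_bound {k d : ℕ} (hk : 0 < k) (hd : 0 < d) {p D : ℝ} (hp : 2 ≤ p) (hD : 0 ≤ D)
    (U : Fin d → E k → ℝ) (hU : ∀ c, LipschitzWith 1 (U c))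
    (hlow : ∀ a ∈ grid k, ∀ b ∈ grid k, ‖a - b‖ ^ p ≤ D ^ p * ∑ c, |U c a - U c b| ^ p) :
    (√2 * (√k * mom 1)) ^ p ≤ bound p D * d := by
  have hp0 : 0 < p := by linarith
  have hp1 : 1 ≤ p := by linarith
  set μ := (γ k).prod (γ k)
  obtain ⟨hei, hev⟩ := err_integrable_le hk hp
  set e : E k → ℝ := fun x => ‖x - round' k x‖
  have he1 : Integrable (fun z : E k × E k => e z.1 ^ p) μ := hei.comp_fst _
  have he2 : Integrable (fun z : E k × E k => e z.2 ^ p) μ := hei.comp_snd _
  have hUi : ∀ c, Integrable (fun z : E k × E k => |U c z.1 - U c z.2| ^ p) μ := fun c => by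
    refine integrable_of_bound μ (A := 0) (B := 2 ^ p) hp0 ((Continuous.rpow_const
      (by have := (hU c).continuous; fun_prop) fun _ => Or.inr hp0.le).aestronglyMeasurable) fun z => ?_
    rw [abs_of_nonneg (rpow_nonneg (abs_nonneg _) _), zero_add,
      ← mul_rpow zero_le_two (norm_nonneg _)]
    refine rpow_le_rpow (abs_nonneg _) ?_ hp0.le
    have := (hU c).dist_le_mul z.1 z.2
    simp only [NNReal.coe_one, one_mul, dist_eq_norm, Real.norm_eq_abs] at this
    linarith [norm_sub_le z.1 z.2, norm_fst_le z, norm_snd_le z]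
  have hpt : ∀ z : E k × E k, ‖z.1 - z.2‖ ^ p ≤ 3 ^ (p - 1) * (D ^ p * (3 ^ (p - 1) *
      ∑ c, (|U c z.1 - U c z.2| ^ p + e z.1 ^ p + e z.2 ^ p)) + e z.1 ^ p + e z.2 ^ p) := fun z => by
    set a := round' k z.1
    set b := round' k z.2
    have h1 : ‖z.1 - z.2‖ ≤ ‖a - b‖ + e z.1 + e z.2 := by
      have : z.1 - z.2 = (a - b) + (z.1 - a) + (b - z.2) := by abel
      rw [this]
      refine norm_add₃_le.trans_eq ?_
      rw [norm_sub_rev b z.2]
    have h2 : ∀ c, |U c a - U c b| ^ p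
        ≤ 3 ^ (p - 1) * (|U c z.1 - U c z.2| ^ p + e z.1 ^ p + e z.2 ^ p) := fun c => by
      refine le_trans (rpow_le_rpow (abs_nonneg _) ?_ hp0.le)
        (three_rpow hp1 (abs_nonneg _) (norm_nonneg _) (norm_nonneg _))
      have hx := (hU c).dist_le_mul z.1 a
      have hy := (hU c).dist_le_mul z.2 b
      simp only [NNReal.coe_one, one_mul, dist_eq_norm, Real.norm_eq_abs] at hx hy
      calc |U c a - U c b| = |(U c z.1 - U c z.2) - (U c z.1 - U c a) + (U c z.2 - U c b)| := by
            ring_nf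
        _ ≤ |U c z.1 - U c z.2| + |U c z.1 - U c a| + |U c z.2 - U c b| :=
            (abs_add_le _ _).trans (add_le_add (abs_sub _ _) le_rfl)
        _ ≤ _ := add_le_add (add_le_add le_rfl hx) hy
    refine (rpow_le_rpow (norm_nonneg _) h1 hp0.le).trans
      ((three_rpow hp1 (norm_nonneg _) (norm_nonneg _) (norm_nonneg _)).trans ?_)
    refine mul_le_mul_of_nonneg_left (add_le_add (add_le_add ?_ le_rfl) le_rfl) (by positivity)
    refine (hlow a (round'_mem k _) b (round'_mem k _)).trans ?_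
    rw [Finset.mul_sum Finset.univ _ (3 ^ (p - 1))]
    exact mul_le_mul_of_nonneg_left (Finset.sum_le_sum fun c _ => h2 c) (by positivity)
  have hI1 : ∀ c, Integrable
      (fun z : E k × E k => |U c z.1 - U c z.2| ^ p + e z.1 ^ p + e z.2 ^ p) μ := fun c =>
    ((hUi c).add he1).add he2
  have hI2 : Integrable (fun z : E k × E k => D ^ p * (3 ^ (p - 1) *
      ∑ c, (|U c z.1 - U c z.2| ^ p + e z.1 ^ p + e z.2 ^ p))) μ :=
    ((integrable_finsetSum _ fun c _ => hI1 c).const_mul _).const_mul _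
  have hI3 : Integrable (fun z : E k × E k => D ^ p * (3 ^ (p - 1) *
      ∑ c, (|U c z.1 - U c z.2| ^ p + e z.1 ^ p + e z.2 ^ p)) + e z.1 ^ p) μ := hI2.fun_add he1
  refine (sqrt_mul_le k hp1).trans ((integral_mono_of_nonneg
    (ae_of_all _ fun z => rpow_nonneg (norm_nonneg _) _)
    ((hI3.fun_add he2).const_mul _) (ae_of_all _ hpt)).trans ?_)
  have hv1 : ∫ z, e z.1 ^ p ∂μ ≤ errMom p := by
    rw [integral_fun_fst (fun x => e x ^ p)]; simpa using hev
  have hv2 : ∫ z, e z.2 ^ p ∂μ ≤ errMom p := by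
    rw [integral_fun_snd (fun x => e x ^ p)]; simpa using hev
  have hvc : ∀ c, ∫ z, (|U c z.1 - U c z.2| ^ p + e z.1 ^ p + e z.2 ^ p) ∂μ
      ≤ (π / 2) ^ p * mom p + 2 * errMom p := fun c => by
    rw [integral_add ((hUi c).fun_add he1) he2, integral_add (hUi c) he1]
    linarith [gaussian_lip k hp1 (U c) (hU c)]
  rw [integral_const_mul, integral_add hI3 he2, integral_add hI2 he1, integral_const_mul,
    integral_const_mul, integral_finsetSum _ fun c _ => hI1 c]
  have hd' : (1 : ℝ) ≤ d := by exact_mod_cast hd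
  have hs : ∑ c : Fin d, ∫ z, (|U c z.1 - U c z.2| ^ p + e z.1 ^ p + e z.2 ^ p) ∂μ
      ≤ d * ((π / 2) ^ p * mom p + 2 * errMom p) :=
    (Finset.sum_le_sum fun c _ => hvc c).trans_eq (by simp [mul_add])
  have hA := mul_le_mul_of_nonneg_left
    (mul_le_mul_of_nonneg_left hs (show (0 : ℝ) ≤ 3 ^ (p - 1) by positivity))
    (show (0 : ℝ) ≤ D ^ p by positivity)
  have hB : 2 * errMom p ≤ 2 * errMom p * d :=
    le_mul_of_one_le_right (by linarith [errMom_nonneg p]) hd'
  rw [bound, mul_assoc (3 ^ (p - 1))]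
  refine mul_le_mul_of_nonneg_left ?_ (by positivity)
  calc _ ≤ D ^ p * (3 ^ (p - 1) * (d * ((π / 2) ^ p * mom p + 2 * errMom p))) + 2 * errMom p * d := by
        linarith
    _ = _ := by ring

end Vale.Agent.P249.Lower
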