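import Vale.Agent.P249.Lower.Grid

/-!
Lower bound for dimension reduction in `L_p`, `p > 2`.
-/

open MeasureTheory ProbabilityTheory Real Filter Topology
open scoped NNReal ENNReal

namespace Vale.Agent.P249.Lower

/-- The `L_p` embedding of Euclidean space by Gaussian variables. -/
noncomputable def gaussEmb (P : ℝ≥0∞) (k : ℕ) (y : E k) : Lp ℝ P (γ k) :=
  StrongDual.toLpₗ (γ k) P (innerSL ℝ y)

theorem mom_pos {p : ℝ} (hp : 1 ≤ p) : 0 < mom p := by
  have hp0 : 0 < p := lt_of_lt_of_le one_pos hp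
  have hi : Integrable (fun t : ℝ => |t| ^ p) (gaussianReal 0 1) :=
    integrable_of_bound _ (A := 0) (B := 1) hp0
      (continuous_abs.rpow_const fun _ => Or.inr hp0.le).aestronglyMeasurable
      fun t => by rw [abs_of_nonneg (rpow_nonneg (abs_nonneg _) _)]; simp
  rw [mom, integral_pos_iff_support_of_nonneg (fun t => rpow_nonneg (abs_nonneg t) _) hi]
  have : Function.support (fun t : ℝ => |t| ^ p) = {0}ᶜ := by
    ext t; simp [rpow_eq_zero_iff_of_nonneg (abs_nonneg t), hp0.ne']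
  rw [this]
  have := nullSingletonClass_gaussianReal (μ := 0) (v := 1) one_ne_zero
  simp [measure_compl (measurableSet_singleton (0 : ℝ))]

theorem dist_gaussEmb (P : ℝ≥0∞) [Fact (1 ≤ P)] (hP : P ≠ ⊤) (k : ℕ) (y y' : E k) :
    dist (gaussEmb P k y) (gaussEmb P k y') = mom P.toReal ^ P.toReal⁻¹ * dist y y' := by
  have hp : 1 ≤ P.toReal := ENNReal.toReal_mono hP (Fact.out : (1 : ℝ≥0∞) ≤ P)
  have hp0 : 0 < P.toReal := lt_of_lt_of_le one_pos hp
  have h0 : P ≠ 0 := (lt_of_lt_of_le zero_lt_one (Fact.out : (1 : ℝ≥0∞) ≤ P)).ne'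
  have hid : MemLp id P (γ k) := IsGaussian.memLp_id _ P hP
  rw [dist_eq_norm, gaussEmb, gaussEmb, ← map_sub, ← map_sub, dist_eq_norm,
    StrongDual.toLpₗ_apply hid, Lp.norm_toLp,
    MemLp.eLpNorm_eq_integral_rpow_norm h0 hP (IsGaussian.memLp_dual (γ k) _ P hP),
    ENNReal.toReal_ofReal (by positivity)]
  simp only [Real.norm_eq_abs]
  rw [integral_dual_rpow k _ hp0.le, innerSL_apply_norm,
    mul_rpow (by positivity) (mom_nonneg _), rpow_rpow_inv (norm_nonneg _) hp0.ne', mul_comm]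

theorem gaussEmb_injective (P : ℝ≥0∞) [Fact (1 ≤ P)] (hP : P ≠ ⊤) (k : ℕ) :
    Function.Injective (gaussEmb P k) := fun y y' h => by
  have h1 := dist_gaussEmb P hP k y y'
  rw [h, dist_self] at h1
  have : 0 < mom P.toReal ^ P.toReal⁻¹ :=
    rpow_pos_of_pos (mom_pos (ENNReal.toReal_mono hP (Fact.out : (1 : ℝ≥0∞) ≤ P))) _
  exact dist_eq_zero.1 ((mul_eq_zero.1 h1.symm).resolve_left this.ne')

theorem abs_apply_le_dist {P : ℝ≥0∞} [Fact (1 ≤ P)] {d : ℕ}
    (u v : PiLp P (fun _ : Fin d => ℝ)) (c : Fin d) : |u c - v c| ≤ dist u v := by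
  simpa [dist_eq_norm] using PiLp.norm_apply_le (u - v) c

theorem dist_rpow_eq {P : ℝ≥0∞} [Fact (1 ≤ P)] (hP : P ≠ ⊤) {d : ℕ}
    (u v : PiLp P (fun _ : Fin d => ℝ)) :
    dist u v ^ P.toReal = ∑ c, |u c - v c| ^ P.toReal := by
  have hp0 : 0 < P.toReal :=
    lt_of_lt_of_le one_pos (ENNReal.toReal_mono hP (Fact.out : (1 : ℝ≥0∞) ≤ P))
  rw [PiLp.dist_eq_sum hp0, one_div, rpow_inv_rpow (by positivity) hp0.ne']
  simp [Real.dist_eq]

/-- A family of points containing the grid needs dimension `k^(p/2)`. -/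
theorem grid_family_bound {P : ℝ≥0∞} [Fact (1 ≤ P)] (hP : P ≠ ⊤) (hP2 : 2 ≤ P.toReal) {k d n : ℕ}
    (hk : 0 < k) (hd : 0 < d) {D s : ℝ} (hD : 1 ≤ D) (hs : 0 < s) (y : Fin n → E k)
    (hcov : ∀ a ∈ grid k, ∃ i, y i = a) (f : Fin n → PiLp P (fun _ : Fin d => ℝ))
    (hf : ∀ i j, s * dist (gaussEmb P k (y i)) (gaussEmb P k (y j)) ≤ dist (f i) (f j) ∧
      dist (f i) (f j) ≤ D * s * dist (gaussEmb P k (y i)) (gaussEmb P k (y j))) :
    (√2 * (√k * mom 1)) ^ P.toReal ≤ bound P.toReal D * d := by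
  classical
  have hσ : 0 < mom P.toReal ^ P.toReal⁻¹ := rpow_pos_of_pos (mom_pos (by linarith)) _
  set σ := mom P.toReal ^ P.toReal⁻¹
  have hA : 0 < D * s * σ := by positivity
  simp only [dist_gaussEmb P hP k] at hf
  have hn : ∃ i : Fin n, True := by
    obtain ⟨i, -⟩ := hcov (round' k 0) (round'_mem k 0)
    exact ⟨i, trivial⟩
  have : Nonempty (Fin n) := ⟨hn.choose⟩
  let sel : E k → Fin n := fun a =>
    if h : ∃ i, y i = a then h.choose else Classical.arbitrary (Fin n)
  have hsel : ∀ a ∈ grid k, y (sel a) = a := fun a ha => by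
    have := hcov a ha
    simp only [sel, dif_pos this]; exact this.choose_spec
  have hext : ∀ c : Fin d, ∃ U : E k → ℝ, LipschitzWith 1 U ∧
      Set.EqOn (fun a => f (sel a) c / (D * s * σ)) U (grid k : Set (E k)) := fun c => by
    refine LipschitzOnWith.extend_real (LipschitzOnWith.of_dist_le_mul fun a ha b hb => ?_)
    rw [Real.dist_eq, ← sub_div, abs_div, abs_of_pos hA, NNReal.coe_one, one_mul, div_le_iff₀ hA]
    refine (abs_apply_le_dist _ _ c).trans (((hf (sel a) (sel b)).2).trans_eq ?_)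
    rw [hsel a ha, hsel b hb]; ring
  choose U hU hUeq using hext
  refine dim_bound hk hd hP2 (by linarith) U hU fun a ha b hb => ?_
  have h1 : s * σ * dist a b ≤ dist (f (sel a)) (f (sel b)) := by
    have := (hf (sel a) (sel b)).1
    rw [hsel a ha, hsel b hb] at this; linarith
  have h2 : (s * σ) ^ P.toReal * ‖a - b‖ ^ P.toReal
      ≤ (D * s * σ) ^ P.toReal * ∑ c, |U c a - U c b| ^ P.toReal := by
    rw [← mul_rpow (by positivity) (norm_nonneg _), ← dist_eq_norm]
    refine (rpow_le_rpow (by positivity) h1 (by linarith)).trans_eq ?_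
    rw [dist_rpow_eq hP, Finset.mul_sum]
    refine Finset.sum_congr rfl fun c _ => ?_
    rw [← hUeq c ha, ← hUeq c hb, ← sub_div, abs_div, abs_of_pos hA,
      ← mul_rpow hA.le (by positivity), mul_div_cancel₀ _ hA.ne']
  rw [mul_assoc D, mul_rpow (x := D) (y := s * σ) (by linarith) (by positivity),
    mul_comm (D ^ P.toReal), mul_assoc] at h2
  exact le_of_mul_le_mul_left h2 (by positivity)

theorem exists_points {k n : ℕ} (hk : 0 < k) (hn : (grid k).card ≤ n) :
    ∃ y : Fin n → E k, Function.Injective y ∧ ∀ a ∈ grid k, ∃ i, y i = a := by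
  classical
  have : Nonempty (Fin k) := ⟨⟨0, hk⟩⟩
  have : Infinite (E k) := Module.Free.infinite ℝ (E k)
  obtain ⟨T, hT, hcard⟩ := Infinite.exists_superset_card_eq (grid k) n hn
  refine ⟨fun i => ((T.equivFinOfCardEq hcard).symm i : E k),
    Subtype.val_injective.comp (Equiv.injective _), fun a ha => ?_⟩
  exact ⟨T.equivFinOfCardEq hcard ⟨a, hT ha⟩, by simp⟩

theorem log_ratio_le {n : ℕ} (hn : 3 ≤ n) : ∃ k, 0 < k ∧ (2 * k + 1) ^ k ≤ n ∧
    Real.log n / Real.log (Real.log n + 3) ≤ 4 * k := by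
  classical
  set k := Nat.findGreatest (fun j => (2 * j + 1) ^ j ≤ n) n with hkdef
  have h1 : (2 * 1 + 1) ^ 1 ≤ n := by simpa using hn
  have hk1 : 1 ≤ k := Nat.le_findGreatest (P := fun j => (2 * j + 1) ^ j ≤ n) (by omega) h1
  have hk2 : (2 * k + 1) ^ k ≤ n :=
    Nat.findGreatest_spec (P := fun j => (2 * j + 1) ^ j ≤ n) (by omega : 1 ≤ n) h1
  have hkn : k + 1 ≤ n := by
    rcases Nat.lt_or_ge k n with h | h
    · exact h
    · exfalso
      have : (2 * k + 1) ^ 1 ≤ (2 * k + 1) ^ k := Nat.pow_le_pow_right (by omega) hk1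
      rw [pow_one] at this
      omega
  have hk3 : n < (2 * (k + 1) + 1) ^ (k + 1) := by
    by_contra hcon
    exact Nat.findGreatest_is_greatest (P := fun j => (2 * j + 1) ^ j ≤ n)
      (Nat.lt_succ_self k) hkn (not_lt.1 hcon)
  have hk1' : (1 : ℝ) ≤ k := by exact_mod_cast hk1
  set L := Real.log n
  have hL : (k : ℝ) ≤ L := by
    have h3 : Real.exp 1 ≤ 3 := (Real.exp_one_lt_d9.trans (by norm_num)).le
    have : (Real.exp 1) ^ k ≤ (n : ℝ) := by
      refine le_trans (pow_le_pow_left₀ (Real.exp_pos 1).le h3 k) ?_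
      calc (3 : ℝ) ^ k ≤ ((2 * k + 1 : ℕ) : ℝ) ^ k :=
            pow_le_pow_left₀ (by norm_num) (by push_cast; linarith) k
        _ ≤ n := by exact_mod_cast hk2
    calc (k : ℝ) = Real.log (Real.exp 1 ^ k) := by rw [Real.log_pow, Real.log_exp, mul_one]
      _ ≤ L := Real.log_le_log (by positivity) this
  have hL3 : 0 < Real.log (L + 3) := Real.log_pos (by linarith)
  have hup : L ≤ (k + 1) * (2 * Real.log (L + 3)) := by
    have h4 : L ≤ (k + 1) * Real.log (2 * (k + 1) + 1) := by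
      have := Real.log_le_log (show (0 : ℝ) < n by exact_mod_cast (by omega : 0 < n))
        (show (n : ℝ) ≤ ((2 * (k + 1) + 1 : ℕ) : ℝ) ^ (k + 1) by exact_mod_cast hk3.le)
      rw [Real.log_pow] at this; push_cast at this; exact this
    refine h4.trans (mul_le_mul_of_nonneg_left ?_ (by linarith))
    calc Real.log (2 * (k + 1) + 1) ≤ Real.log ((L + 3) ^ 2) :=
          Real.log_le_log (by linarith) (by nlinarith)
      _ = _ := by rw [Real.log_pow]; norm_num
  refine ⟨k, hk1, hk2, ?_⟩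
  rw [div_le_iff₀ hL3]
  nlinarith [hL3.le]

/-- **Main theorem.** -/
theorem lower_bound (P : ℝ≥0∞) [Fact (1 ≤ P)] (hP2 : 2 < P) (hP : P ≠ ⊤) (D : ℝ) (hD : 1 ≤ D) :
    ∃ c : ℝ, 0 < c ∧ ∀ n : ℕ, 2 ≤ n →
      ∃ (Ω : Type) (m : MeasurableSpace Ω) (μ : @Measure Ω m) (X : Fin n → Lp ℝ P μ),
        Function.Injective X ∧ ∀ (d : ℕ) (f : Fin n → PiLp P (fun _ : Fin d => ℝ)) (s : ℝ), 0 < s →
          (∀ i j, s * dist (X i) (X j) ≤ dist (f i) (f j) ∧
            dist (f i) (f j) ≤ D * s * dist (X i) (X j)) →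
          c * (Real.log n / Real.log (Real.log n + 3)) ^ (P.toReal / 2) ≤ d := by
  set p := P.toReal
  have hp2 : 2 ≤ p := by simpa using ENNReal.toReal_mono hP hP2.le
  have hp0 : 0 < p := by linarith
  set a := (√2 * mom 1 / 2) ^ p
  have ha : 0 < a := rpow_pos_of_pos (by have := mom_one_pos; positivity) _
  have hb : 0 ≤ bound p D := by
    have := mom_nonneg p; have := errMom_nonneg p; unfold bound
    positivity
  -- the value of the ratio at `n = 2`
  set r2 := (Real.log 2 / Real.log (Real.log 2 + 3)) ^ (p / 2)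
  have hl2 : 0 < Real.log 2 := Real.log_pos one_lt_two
  have hr2 : 0 < r2 := rpow_pos_of_pos (div_pos hl2 (Real.log_pos (by linarith))) _
  refine ⟨min (a / (bound p D + 1)) r2⁻¹, lt_min (by positivity) (by positivity), fun n hn => ?_⟩
  have hpos : ∀ (d : ℕ) (Z : Fin n → E 1) (f : Fin n → PiLp P (fun _ : Fin d => ℝ)) (s : ℝ),
      0 < s → Function.Injective Z →
      (∀ i j, s * dist (Z i) (Z j) ≤ dist (f i) (f j)) → 0 < d := fun d Z f s hs hZ hf => by
    rcases Nat.eq_zero_or_pos d with rfl | h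
    · exfalso
      have := hf ⟨0, by omega⟩ ⟨1, by omega⟩
      rw [Subsingleton.elim (f ⟨0, by omega⟩) (f ⟨1, by omega⟩), dist_self] at this
      have : dist (Z ⟨0, by omega⟩) (Z ⟨1, by omega⟩) ≤ 0 :=
        le_of_mul_le_mul_left (by simpa using this) hs
      exact absurd (hZ (dist_le_zero.1 this)) (by simp [Fin.ext_iff])
    · exact h
  rcases (show n = 2 ∨ 3 ≤ n by omega) with rfl | hn3
  · let y : Fin 2 → E 1 := fun i => WithLp.toLp 2 fun _ => ((i : ℕ) : ℝ)
    have hy : Function.Injective y := fun i j h => by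
      have := congrArg (fun v : E 1 => v 0) h
      simpa [y, Fin.val_inj] using this
    refine ⟨E 1, inferInstance, γ 1, fun i => gaussEmb P 1 (y i),
      (gaussEmb_injective P hP 1).comp hy, fun d f s hs hf => ?_⟩
    have hd : 0 < d := by
      refine hpos d y f (s * mom p ^ p⁻¹) (mul_pos hs (rpow_pos_of_pos (mom_pos (by linarith)) _)) hy
        fun i j => ?_
      have := (hf i j).1
      rw [dist_gaussEmb P hP] at this; linarith
    calc _ ≤ r2⁻¹ * r2 := mul_le_mul_of_nonneg_right (min_le_right _ _) hr2.le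
      _ = 1 := inv_mul_cancel₀ hr2.ne'
      _ ≤ d := by exact_mod_cast hd
  obtain ⟨k, hk, hkn, hratio⟩ := log_ratio_le hn3
  obtain ⟨y, hy, hcov⟩ := exists_points hk ((card_grid_le k).trans hkn)
  refine ⟨E k, inferInstance, γ k, fun i => gaussEmb P k (y i),
    (gaussEmb_injective P hP k).comp hy, fun d f s hs hf => ?_⟩
  have hd : 0 < d := by
    rcases Nat.eq_zero_or_pos d with rfl | h
    · exfalso
      have h01 := (hf ⟨0, by omega⟩ ⟨1, by omega⟩).1
      rw [Subsingleton.elim (f ⟨0, by omega⟩) (f ⟨1, by omega⟩), dist_self] at h01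
      have h02 : dist (gaussEmb P k (y ⟨0, by omega⟩)) (gaussEmb P k (y ⟨1, by omega⟩)) ≤ 0 :=
        le_of_mul_le_mul_left (by simpa using h01) hs
      exact absurd (hy (gaussEmb_injective P hP k (dist_le_zero.1 h02))) (by simp [Fin.ext_iff])
    · exact h
  have hmain : (√2 * (√k * mom 1)) ^ p ≤ bound p D * d :=
    grid_family_bound hP hp2 hk hd hD hs y hcov f hf
  have hlog : (Real.log n / Real.log (Real.log n + 3)) ^ (p / 2) ≤ (2 * √k) ^ p := by
    have hln : 0 ≤ Real.log n / Real.log (Real.log n + 3) :=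
      div_nonneg (Real.log_natCast_nonneg n)
        (Real.log_nonneg (by linarith [Real.log_natCast_nonneg n]))
    refine (rpow_le_rpow hln hratio (by linarith)).trans_eq ?_
    have : (4 : ℝ) * k = (2 * √k) ^ (2 : ℕ) := by
      rw [mul_pow, Real.sq_sqrt (Nat.cast_nonneg k)]; norm_num
    rw [this, ← rpow_natCast, ← rpow_mul (by positivity)]
    congr 1; push_cast; ring
  calc min (a / (bound p D + 1)) r2⁻¹ * (Real.log n / Real.log (Real.log n + 3)) ^ (p / 2)
      ≤ a / (bound p D + 1) * (2 * √k) ^ p :=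
        mul_le_mul (min_le_left _ _) hlog
          (rpow_nonneg (div_nonneg (Real.log_natCast_nonneg n)
            (Real.log_nonneg (by linarith [Real.log_natCast_nonneg n]))) _) (by positivity)
    _ = (√2 * (√k * mom 1)) ^ p / (bound p D + 1) := by
        have hm := mom_one_pos
        rw [div_mul_eq_mul_div, ← mul_rpow (by positivity) (by positivity)]
        congr 2; ring
    _ ≤ bound p D * d / (bound p D + 1) := by gcongr
    _ ≤ d := by
        rw [div_le_iff₀ (by linarith)]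
        nlinarith [Nat.cast_nonneg (α := ℝ) d]

end Vale.Agent.P249.Lower
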